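import Vale.Agent.P321.Defs

/-!
The `ℓ¹` algebra of finitely supported signed measures on binary strings, and the smoothing bound
`‖P^a (1 - P)‖ = O(1 / √a)` for a probability element `P`.
-/

open Finset

namespace Vale.Agent.P321

/-- All coefficients are nonnegative. -/
def Pos (f : Alg) : Prop := ∀ w, 0 ≤ f.coeff w

/-- The total mass. -/
noncomputable def mass : Alg →ₐ[ℝ] ℝ := MonoidAlgebra.lift ℝ ℝ (FreeMonoid Bool) 1

lemma mass_eq (f : Alg) : mass f = f.coeff.sum fun _ a => a := by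
  simp [mass, MonoidAlgebra.lift_apply]

lemma nrm_eq_sum {f : Alg} {s : Finset (FreeMonoid Bool)} (h : f.coeff.support ⊆ s) :
    nrm f = ∑ w ∈ s, |f.coeff w| :=
  Finsupp.sum_of_support_subset _ h _ (by simp)

lemma mass_eq_sum {f : Alg} {s : Finset (FreeMonoid Bool)} (h : f.coeff.support ⊆ s) :
    mass f = ∑ w ∈ s, f.coeff w := by
  rw [mass_eq]
  exact Finsupp.sum_of_support_subset _ h _ (by simp)

lemma nrm_nonneg (f : Alg) : 0 ≤ nrm f := Finset.sum_nonneg fun _ _ => abs_nonneg _

lemma nrm_zero : nrm 0 = 0 := by simp [nrm]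

lemma nrm_add (f g : Alg) : nrm (f + g) ≤ nrm f + nrm g := by
  classical
  set s := f.coeff.support ∪ g.coeff.support
  rw [nrm_eq_sum (f := f + g) (s := s) (by simpa using Finsupp.support_add),
    nrm_eq_sum (f := f) (s := s) subset_union_left,
    nrm_eq_sum (f := g) (s := s) subset_union_right, ← Finset.sum_add_distrib]
  exact Finset.sum_le_sum fun w _ => by simpa using abs_add_le _ _

lemma nrm_neg (f : Alg) : nrm (-f) = nrm f := by
  classical
  rw [nrm_eq_sum (f := -f) (s := f.coeff.support) (by simp),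
    nrm_eq_sum (f := f) (s := f.coeff.support) subset_rfl]
  simp

lemma nrm_sub (f g : Alg) : nrm (f - g) ≤ nrm f + nrm g := by
  rw [sub_eq_add_neg]
  exact (nrm_add _ _).trans (by rw [nrm_neg])

lemma nrm_sub_comm (f g : Alg) : nrm (f - g) = nrm (g - f) := by rw [← nrm_neg, neg_sub]

lemma nrm_sum {ι : Type*} (s : Finset ι) (f : ι → Alg) : nrm (∑ i ∈ s, f i) ≤ ∑ i ∈ s, nrm (f i) := by
  classical
  induction s using Finset.induction_on with
  | empty => simp [nrm_zero]
  | insert a s ha ih =>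
    rw [Finset.sum_insert ha, Finset.sum_insert ha]
    exact (nrm_add _ _).trans (add_le_add le_rfl ih)

lemma nrm_single (w : FreeMonoid Bool) (r : ℝ) : nrm (MonoidAlgebra.single w r) = |r| := by
  simp [nrm]

lemma nrm_smul (c : ℝ) (f : Alg) : nrm (c • f) = |c| * nrm f := by
  classical
  rw [nrm_eq_sum (f := c • f) (s := f.coeff.support) (by simpa using Finsupp.support_smul),
    nrm_eq_sum (f := f) (s := f.coeff.support) subset_rfl, Finset.mul_sum]
  simp [abs_mul]

lemma nrm_mul (f g : Alg) : nrm (f * g) ≤ nrm f * nrm g := by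
  classical
  rw [MonoidAlgebra.mul_def]
  refine (nrm_sum _ _).trans ?_
  rw [nrm, Finsupp.sum, Finset.sum_mul]
  refine Finset.sum_le_sum fun a _ => ?_
  refine (nrm_sum _ _).trans (le_of_eq ?_)
  rw [nrm, Finsupp.sum, Finset.mul_sum]
  exact Finset.sum_congr rfl fun b _ => by rw [nrm_single, abs_mul]

lemma nrm_of_pos {f : Alg} (h : Pos f) : nrm f = mass f := by
  rw [mass_eq, nrm]
  exact Finset.sum_congr rfl fun w _ => abs_of_nonneg (h w)

lemma nrm_one : nrm (1 : Alg) = 1 := by
  rw [MonoidAlgebra.one_def, nrm_single, abs_one]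

lemma Pos.one : Pos (1 : Alg) := fun w => by
  classical
  rw [MonoidAlgebra.one_def]
  simp [Finsupp.single_apply]
  split_ifs <;> norm_num

lemma Pos.add {f g : Alg} (hf : Pos f) (hg : Pos g) : Pos (f + g) := fun w => by
  simpa using add_nonneg (hf w) (hg w)

lemma Pos.smul {f : Alg} {c : ℝ} (hc : 0 ≤ c) (hf : Pos f) : Pos (c • f) := fun w => by
  simpa using mul_nonneg hc (hf w)

lemma Pos.mul {f g : Alg} (hf : Pos f) (hg : Pos g) : Pos (f * g) := fun w => by
  classical
  rw [MonoidAlgebra.mul_def]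
  simp only [MonoidAlgebra.coeff_sum, Finsupp.sum, Finsupp.finsetSum_apply]
  refine Finset.sum_nonneg fun a _ => Finset.sum_nonneg fun b _ => ?_
  simp only [MonoidAlgebra.coeff_single, Finsupp.single_apply]
  split_ifs
  · exact mul_nonneg (hf a) (hg b)
  · exact le_rfl

/-- A probability element. -/
structure IsProb (f : Alg) : Prop where
  pos : Pos f
  mass_one : mass f = 1

lemma IsProb.nrm_eq {f : Alg} (h : IsProb f) : nrm f = 1 := by rw [nrm_of_pos h.pos, h.mass_one]

lemma IsProb.one : IsProb (1 : Alg) := ⟨Pos.one, map_one _⟩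

lemma IsProb.mul {f g : Alg} (hf : IsProb f) (hg : IsProb g) : IsProb (f * g) :=
  ⟨hf.pos.mul hg.pos, by rw [map_mul, hf.mass_one, hg.mass_one, one_mul]⟩

lemma IsProb.pow {f : Alg} (hf : IsProb f) : ∀ k : ℕ, IsProb (f ^ k)
  | 0 => by rw [pow_zero]; exact IsProb.one
  | k + 1 => by rw [pow_succ]; exact (hf.pow k).mul hf

lemma IsProb.nrm_mul_left {f : Alg} (hf : IsProb f) (g : Alg) : nrm (f * g) ≤ nrm g :=
  (nrm_mul f g).trans (by rw [hf.nrm_eq, one_mul])

lemma IsProb.nrm_mul_right {f : Alg} (hf : IsProb f) (g : Alg) : nrm (g * f) ≤ nrm g :=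
  (nrm_mul g f).trans (by rw [hf.nrm_eq, mul_one])

lemma central_sq : ∀ m : ℕ, (m.centralBinom : ℝ) ^ 2 * (2 * m + 1) ≤ 16 ^ m
  | 0 => by simp
  | m + 1 => by
    have h : ((m + 1 : ℕ) : ℝ) * (m + 1).centralBinom = 2 * (2 * m + 1) * m.centralBinom := by
      exact_mod_cast Nat.succ_mul_centralBinom_succ m
    have ih := central_sq m
    push_cast at h ⊢
    have hm : (0 : ℝ) < ((m : ℝ) + 1) ^ 2 := by positivity
    refine le_of_mul_le_mul_left ?_ hm
    calc ((m : ℝ) + 1) ^ 2 * (((m + 1).centralBinom : ℝ) ^ 2 * (2 * ((m : ℝ) + 1) + 1))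
        = (((m : ℝ) + 1) * (m + 1).centralBinom) ^ 2 * (2 * (m : ℝ) + 3) := by ring
      _ = 4 * ((2 * (m : ℝ) + 1) * (2 * m + 3)) * ((m.centralBinom : ℝ) ^ 2 * (2 * m + 1)) := by
          rw [h]; ring
      _ ≤ 4 * (4 * ((m : ℝ) + 1) ^ 2) * 16 ^ m :=
          mul_le_mul (by nlinarith) ih (by positivity) (by positivity)
      _ = _ := by ring

lemma middle_sq (j : ℕ) : (j.choose (j / 2) : ℝ) ^ 2 * (j + 1) ≤ 4 ^ j := by
  rcases Nat.even_or_odd' j with ⟨m, rfl | rfl⟩
  · rw [show 2 * m / 2 = m by omega, ← Nat.centralBinom_eq_two_mul_choose]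
    refine le_trans (le_of_eq (by push_cast; ring)) ((central_sq m).trans_eq ?_)
    rw [pow_mul]; norm_num
  · rw [show (2 * m + 1) / 2 = m by omega]
    have h : ((m + 1).centralBinom : ℝ) = 2 * ((2 * m + 1).choose m : ℝ) := by
      have h1 := Nat.choose_succ_succ (2 * m + 1) m
      have h2 := Nat.choose_symm_half m
      rw [Nat.centralBinom_eq_two_mul_choose, show 2 * (m + 1) = (2 * m + 1).succ by omega, h1,
        Nat.succ_eq_add_one, h2]
      push_cast; ring
    have h3 := central_sq (m + 1)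
    rw [h] at h3
    push_cast at h3 ⊢
    have h4 : (4 : ℝ) ^ (2 * m + 1) = 4 * 16 ^ m := by
      rw [pow_succ, pow_mul]; norm_num; ring
    rw [h4]
    rw [mul_pow, pow_succ (16 : ℝ)] at h3
    nlinarith [sq_nonneg ((2 * m + 1).choose m : ℝ)]

lemma half_pow_mul_le {P : Alg} (hP : IsProb P) (j : ℕ) :
    nrm (((1 / 2 : ℝ) • (1 + P)) ^ j * (1 - P)) ≤ 2 / Real.sqrt (j + 1) := by
  classical
  set c : ℕ → ℝ := fun i => if i = 0 then 0 else (j.choose (i - 1) : ℝ) with hc
  have hexp : ((1 : Alg) + P) ^ j = ∑ i ∈ range (j + 1), (j.choose i : ℝ) • P ^ i := by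
    rw [add_comm, (Commute.one_right P).add_pow]
    refine Finset.sum_congr rfl fun i _ => ?_
    rw [one_pow, mul_one, Algebra.smul_def, map_natCast]
    exact (Nat.cast_commute _ _).eq.symm
  have hdiff : ((1 : Alg) + P) ^ j * (1 - P) =
      ∑ i ∈ range (j + 2), (c (i + 1) - c i) • P ^ i := by
    rw [hexp, mul_sub, mul_one, Finset.sum_mul]
    simp only [sub_smul, Finset.sum_sub_distrib]
    congr 1
    · rw [Finset.sum_range_succ _ (j + 1)]
      simp [hc]
    · rw [Finset.sum_range_succ' _ (j + 1)]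
      simp [hc, pow_succ]
  have habs : ∑ i ∈ range (j + 2), |c (i + 1) - c i| = 2 * (j.choose (j / 2) : ℝ) := by
    set g := j / 2 + 1 with hg
    rw [← Finset.sum_range_add_sum_Ico _ (show g ≤ j + 2 by omega)]
    have h1 : ∀ i ∈ range g, |c (i + 1) - c i| = c (i + 1) - c i := by
      intro i hi
      rw [mem_range] at hi
      refine abs_of_nonneg (sub_nonneg.2 ?_)
      rcases i with _ | k
      · simp [hc]
      · simp only [hc, Nat.add_sub_cancel, Nat.succ_ne_zero, if_false, Nat.cast_le]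
        exact Nat.choose_le_succ_of_lt_half_left (by omega)
    have h2 : ∀ i ∈ Ico g (j + 2), |c (i + 1) - c i| = c i - c (i + 1) := by
      intro i hi
      rw [mem_Ico] at hi
      obtain ⟨k, rfl⟩ : ∃ k, i = k + 1 := ⟨i - 1, by omega⟩
      rw [abs_sub_comm]
      refine abs_of_nonneg (sub_nonneg.2 ?_)
      simp only [hc, Nat.add_sub_cancel, Nat.succ_ne_zero, if_false, Nat.cast_le]
      rcases Nat.lt_or_ge k j with hk | hk
      · rw [← Nat.choose_symm (n := j) (k := k + 1) (by omega),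
          ← Nat.choose_symm (n := j) (k := k) hk.le]
        rcases Nat.lt_or_ge (j - (k + 1)) (j / 2) with h' | h'
        · have := Nat.choose_le_succ_of_lt_half_left h'
          rwa [show j - (k + 1) + 1 = j - k by omega] at this
        · have e := Nat.choose_symm (n := j) (k := j / 2 + 1) (by omega)
          rw [show j - k = j / 2 + 1 by omega, show j - (k + 1) = j / 2 by omega]
          rw [show j - (j / 2 + 1) = j / 2 by omega] at e
          exact e.le
      · rw [Nat.choose_eq_zero_of_lt (show j < k + 1 by omega)]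
        exact Nat.zero_le _
    rw [Finset.sum_congr rfl h1, Finset.sum_congr rfl h2, Finset.sum_range_sub c]
    have h3 : ∀ n, g ≤ n → ∑ i ∈ Ico g n, (c i - c (i + 1)) = c g - c n := by
      intro n hn
      induction n, hn using Nat.le_induction with
      | base => simp
      | succ n hn ih => rw [Finset.sum_Ico_succ_top hn, ih]; ring
    rw [h3 _ (by omega)]
    simp [hc, hg]
    ring
  have hnorm : nrm (((1 : Alg) + P) ^ j * (1 - P)) ≤ 2 * (j.choose (j / 2) : ℝ) := by
    rw [hdiff, ← habs]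
    refine (nrm_sum _ _).trans (Finset.sum_le_sum fun i _ => ?_)
    rw [nrm_smul, (hP.pow i).nrm_eq, mul_one]
  have hs : (0 : ℝ) < Real.sqrt (j + 1) := Real.sqrt_pos.2 (by positivity)
  have hmid : (j.choose (j / 2) : ℝ) * Real.sqrt (j + 1) ≤ 2 ^ j := by
    refine le_of_pow_le_pow_left₀ two_ne_zero (by positivity) ?_
    rw [mul_pow, Real.sq_sqrt (by positivity), ← pow_mul, mul_comm j, pow_mul]
    norm_num
    exact middle_sq j
  rw [smul_pow, smul_mul_assoc, nrm_smul, abs_of_nonneg (by positivity), le_div_iff₀ hs]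
  calc (1 / 2 : ℝ) ^ j * nrm (((1 : Alg) + P) ^ j * (1 - P)) * Real.sqrt (j + 1)
      ≤ (1 / 2) ^ j * (2 * (j.choose (j / 2) : ℝ)) * Real.sqrt (j + 1) := by gcongr
    _ ≤ (1 / 2) ^ j * 2 * 2 ^ j := by
        have : (0 : ℝ) ≤ (1 / 2) ^ j := by positivity
        nlinarith
    _ = 2 := by rw [mul_right_comm, ← mul_pow]; norm_num

/-- `‖P^a (1 - P)‖ ≤ C / √a`. -/
def Smooth (P : Alg) (C : ℝ) : Prop :=
  ∀ a : ℕ, 1 ≤ a → nrm (P ^ a * (1 - P)) ≤ C / Real.sqrt a

/-- If two consecutive powers overlap in mass at least one half then the powers are smooth. -/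
theorem smooth_of_overlap {P : Alg} (hP : IsProb P) (b : ℕ)
    (hb : nrm (P ^ (b + 1) - P ^ b) ≤ 1) : Smooth P (4 * Real.sqrt (b + 1)) := by
  classical
  set K := b + 1 with hK
  set μ : Alg := MonoidAlgebra.ofCoeff
    (Finsupp.zipWith min (min_self 0) (P ^ b).coeff (P ^ K).coeff) with hμ
  set A : Alg := (1 / 2 : ℝ) • (1 + P) with hA
  set R : Alg := P ^ K - A * μ with hR
  have hμw : ∀ w, μ.coeff w = min ((P ^ b).coeff w) ((P ^ K).coeff w) := fun w => by simp [hμ]
  have hμpos : Pos μ := fun w => by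
    rw [hμw]; exact le_min ((hP.pow b).pos w) ((hP.pow K).pos w)
  have hApos : Pos A := (Pos.one.add hP.pos).smul (by norm_num)
  have hAmass : mass A = 1 := by
    rw [hA, map_smul, map_add, map_one, hP.mass_one]; norm_num
  have hRpos : Pos R := by
    intro w
    have hd : Pos (P ^ b - μ) := fun v => by
      simp [hμw]
    have h1 : 0 ≤ (P * (P ^ b - μ)).coeff w := hP.pos.mul hd w
    rw [mul_sub, ← pow_succ'] at h1
    have h2 : μ.coeff w ≤ (P ^ K).coeff w := by rw [hμw]; exact min_le_right _ _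
    have h3 : R = P ^ K - ((1 / 2 : ℝ) • μ + (1 / 2 : ℝ) • (P * μ)) := by
      rw [hR, hA, smul_mul_assoc, add_mul, one_mul, smul_add]
    rw [h3]
    simp only [MonoidAlgebra.coeff_sub, Finsupp.sub_apply, MonoidAlgebra.coeff_add,
      Finsupp.add_apply, MonoidAlgebra.coeff_smul, Finsupp.smul_apply, smul_eq_mul] at h1 ⊢
    linarith
  set lam := mass μ with hlam
  have hRmass : nrm R = 1 - lam := by
    rw [nrm_of_pos hRpos, hR, map_sub, map_mul, hAmass, one_mul, (hP.pow K).mass_one]
  have hlam0 : 1 / 2 ≤ lam := by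
    set s := (P ^ b).coeff.support ∪ (P ^ K).coeff.support
    have h1 : lam = ∑ w ∈ s, μ.coeff w := mass_eq_sum (by
      simpa [hμ] using Finsupp.support_zipWith (f := min) (hf := min_self (0 : ℝ))
        (g₁ := (P ^ b).coeff) (g₂ := (P ^ K).coeff))
    have h2 : nrm (P ^ K - P ^ b) = ∑ w ∈ s, |(P ^ K).coeff w - (P ^ b).coeff w| := by
      rw [nrm_eq_sum (s := s)]
      · simp
      · rw [MonoidAlgebra.coeff_sub]
        exact Finsupp.support_sub.trans (union_subset subset_union_right subset_union_left)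
    have h3 : (1 : ℝ) = ∑ w ∈ s, (P ^ K).coeff w := by
      rw [← mass_eq_sum subset_union_right, (hP.pow K).mass_one]
    have h4 : (1 : ℝ) = ∑ w ∈ s, (P ^ b).coeff w := by
      rw [← mass_eq_sum subset_union_left, (hP.pow b).mass_one]
    have h5 : ∑ w ∈ s, (2 * μ.coeff w + |(P ^ K).coeff w - (P ^ b).coeff w|) =
        ∑ w ∈ s, ((P ^ K).coeff w + (P ^ b).coeff w) := Finset.sum_congr rfl fun w _ => by
      rw [hμw]
      rcases le_total ((P ^ b).coeff w) ((P ^ K).coeff w) with h | h
      · rw [min_eq_left h, abs_of_nonneg (sub_nonneg.2 h)]; ring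
      · rw [min_eq_right h, abs_of_nonpos (sub_nonpos.2 h)]; ring
    rw [Finset.sum_add_distrib, Finset.sum_add_distrib, ← Finset.mul_sum, ← h1, ← h2, ← h3,
      ← h4] at h5
    linarith
  have hlam1 : lam ≤ 1 := by linarith [nrm_nonneg R]
  have hcomm : Commute P A := by
    rw [hA]; exact ((Commute.one_right P).add_right (Commute.refl P)).smul_right _
  have main : ∀ m j : ℕ, nrm (A ^ j * (1 - P) * P ^ (m * K)) ≤
      4 / Real.sqrt ((m : ℝ) + 4 * j + 4) := by
    intro m
    induction m with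
    | zero =>
      intro j
      rw [Nat.zero_mul, pow_zero, mul_one]
      refine (half_pow_mul_le hP j).trans_eq ?_
      rw [show ((0 : ℕ) : ℝ) + 4 * j + 4 = 2 ^ 2 * ((j : ℝ) + 1) by push_cast; ring,
        Real.sqrt_mul (by norm_num), Real.sqrt_sq (by norm_num)]
      field_simp
      norm_num
    | succ m ih =>
      intro j
      have hsplit : A ^ j * (1 - P) * P ^ ((m + 1) * K) =
          (A ^ (j + 1) * (1 - P) * P ^ (m * K)) * μ + (A ^ j * (1 - P) * P ^ (m * K)) * R := by
        have hc : (1 - P) * P ^ (m * K) * A = A * ((1 - P) * P ^ (m * K)) :=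
          (((Commute.one_left A).sub_left hcomm).mul_left (hcomm.pow_left _)).eq
        rw [Nat.succ_mul, pow_add, ← mul_assoc (A ^ j * (1 - P)),
          show P ^ K = A * μ + R by rw [hR]; abel, mul_add, pow_succ A j]
        congr 1
        calc A ^ j * (1 - P) * P ^ (m * K) * (A * μ)
            = A ^ j * ((1 - P) * P ^ (m * K) * A) * μ := by simp only [mul_assoc]
          _ = _ := by rw [hc]; simp only [mul_assoc]
      rw [hsplit]
      refine (nrm_add _ _).trans ?_
      refine (add_le_add ((nrm_mul _ _).trans (mul_le_mul_of_nonneg_right (ih (j + 1)) (nrm_nonneg _)))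
        ((nrm_mul _ _).trans (mul_le_mul_of_nonneg_right (ih j) (nrm_nonneg _)))).trans ?_
      rw [nrm_of_pos hμpos, hRmass, ← hlam]
      push_cast
      set u := (m : ℝ) + 4 * j + 4 with hu
      rw [show (m : ℝ) + 4 * (j + 1) + 4 = u + 4 by rw [hu]; ring,
        show (m : ℝ) + 1 + 4 * j + 4 = u + 1 by rw [hu]; ring]
      have hu4 : 4 ≤ u := by rw [hu]; have := Nat.cast_nonneg (α := ℝ) m; linarith [Nat.cast_nonneg (α := ℝ) j]
      set x := 1 / Real.sqrt (u + 4) with hx
      set y := 1 / Real.sqrt u with hy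
      set z := 1 / Real.sqrt (u + 1) with hz
      have hxy : x ≤ y := one_div_le_one_div_of_le (Real.sqrt_pos.2 (by linarith))
        (Real.sqrt_le_sqrt (by linarith))
      have hsum : x + y ≤ 2 * z := by
        refine le_of_pow_le_pow_left₀ two_ne_zero (by positivity) ?_
        have e : ∀ t : ℝ, 0 < t → (1 / Real.sqrt t) ^ 2 = 1 / t := fun t ht => by
          rw [div_pow, one_pow, Real.sq_sqrt ht.le]
        have : 2 * (x ^ 2 + y ^ 2) ≤ (2 * z) ^ 2 := by
          rw [mul_pow, hx, hy, hz, e _ (by linarith), e _ (by linarith), e _ (by linarith),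
            div_add_div _ _ (by linarith) (by linarith), mul_div_assoc', mul_div_assoc',
            div_le_div_iff₀ (by positivity) (by linarith)]
          nlinarith
        nlinarith [sq_nonneg (x - y)]
      calc 4 / Real.sqrt (u + 4) * lam + 4 / Real.sqrt u * (1 - lam)
          = 4 * (x * lam + y * (1 - lam)) := by rw [hx, hy]; ring
        _ ≤ 4 * z := by nlinarith [mul_nonneg (sub_nonneg.2 hlam0) (sub_nonneg.2 hxy)]
        _ = 4 / Real.sqrt (u + 1) := by rw [hz]; ring
  intro a ha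
  have hKpos : 0 < K := by omega
  have h1 := main (a / K) 0
  rw [pow_zero, one_mul] at h1
  have e : P ^ a * (1 - P) = P ^ (a % K) * ((1 - P) * P ^ (a / K * K)) := by
    rw [((Commute.one_left _).sub_left ((Commute.refl P).pow_right _)).eq, ← mul_assoc,
      ← pow_add, Nat.mod_add_div' a K]
  rw [e]
  refine ((hP.pow _).nrm_mul_left _).trans (h1.trans ?_)
  have hdm : (a : ℝ) ≤ ((a / K : ℕ) + 1) * K := by
    exact_mod_cast (Nat.lt_mul_div_succ a hKpos).le.trans_eq (mul_comm _ _)
  have ha' : (0 : ℝ) < a := by exact_mod_cast ha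
  rw [Nat.cast_zero, mul_zero, add_zero, div_le_div_iff₀ (Real.sqrt_pos.2 (by positivity))
    (Real.sqrt_pos.2 ha'), mul_assoc]
  refine mul_le_mul_of_nonneg_left ?_ (by norm_num)
  rw [← Real.sqrt_mul (by positivity)]
  refine Real.sqrt_le_sqrt (hdm.trans ?_)
  rw [hK]
  push_cast
  nlinarith [Nat.cast_nonneg (α := ℝ) b, Nat.cast_nonneg (α := ℝ) (a / (b + 1))]

lemma Smooth.mono {P : Alg} {C C' : ℝ} (hs : Smooth P C) (h : C ≤ C') : Smooth P C' :=
  fun a ha => (hs a ha).trans (by gcongr)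

/-- The commutator step: moving past a block of `h` copies costs `h C / √a`. -/
lemma Smooth.shift {P : Alg} {C : ℝ} (hP : IsProb P) (hs : Smooth P C) (h : ℕ) {a : ℕ}
    (ha : 1 ≤ a) : nrm (P ^ a * (1 - P ^ h)) ≤ h * (C / Real.sqrt a) := by
  rw [← mul_neg_geom_sum, ← mul_assoc, Finset.mul_sum]
  refine (nrm_sum _ _).trans ?_
  refine (Finset.sum_le_sum fun i _ => ((hP.pow i).nrm_mul_right _).trans (hs a ha)).trans_eq ?_
  rw [Finset.sum_const, Finset.card_range, nsmul_eq_mul]

lemma isProb_single (w : FreeMonoid Bool) : IsProb (MonoidAlgebra.single w (1 : ℝ) : Alg) := by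
  classical
  refine ⟨fun v => ?_, ?_⟩
  · simp only [MonoidAlgebra.coeff_single, Finsupp.single_apply]
    split_ifs <;> norm_num
  · simp [mass_eq]

lemma tr_cons (p : ℝ) (b : Bool) (x : List Bool) : tr p (b :: x) = bitT p b * tr p x := by
  simp [tr]

lemma tr_append (p : ℝ) (x y : List Bool) : tr p (x ++ y) = tr p x * tr p y := by
  simp [tr]

lemma isProb_bitT {p : ℝ} (h0 : 0 ≤ p) (h1 : p ≤ 1) (b : Bool) : IsProb (bitT p b) := by
  classical
  refine ⟨Pos.add ?_ ?_, ?_⟩
  · intro w
    simp only [MonoidAlgebra.coeff_single, Finsupp.single_apply]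
    split_ifs <;> linarith
  · intro w
    simp only [MonoidAlgebra.coeff_single, Finsupp.single_apply]
    split_ifs <;> linarith
  · rw [bitT, map_add, mass_eq, mass_eq, MonoidAlgebra.coeff_single, MonoidAlgebra.coeff_single,
      Finsupp.sum_single_index rfl, Finsupp.sum_single_index rfl]
    ring

lemma isProb_tr {p : ℝ} (h0 : 0 ≤ p) (h1 : p ≤ 1) : ∀ x : List Bool, IsProb (tr p x)
  | [] => IsProb.one
  | b :: x => by rw [tr_cons]; exact (isProb_bitT h0 h1 b).mul (isProb_tr h0 h1 x)

end Vale.Agent.P321
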