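import Mathlib

/-!
P321 (trace reconstruction): shared definitions.

* The problem's channel and success notion, stated by plain finite sums over retention patterns.
* The `ℓ¹` algebra of the free monoid, in which the trace law of a string is the product of the
  one-bit elements `(1-p) + p·[b]`.
-/

open scoped BigOperators

namespace Vale.Agent.P321

/-- The trace of `x` produced by the retention pattern `keep`: the retained bits, in order. -/
def traceOf {n : ℕ} (x : Fin n → Bool) (keep : Fin n → Bool) : List Bool :=
  ((List.finRange n).filter fun i => keep i).map x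

/-- Probability of a retention pattern when each bit is deleted independently with probability
`q`. -/
noncomputable def keepWeight {n : ℕ} (q : ℝ) (keep : Fin n → Bool) : ℝ :=
  ∏ i, if keep i then 1 - q else q

/-- A randomized estimator from `m` traces to strings of length `n`: for every sequence of `m`
binary strings, a probability law on `{0,1}^n`. -/
structure Estimator (n m : ℕ) where
  law : (Fin m → List Bool) → (Fin n → Bool) → ℝ
  nonneg : ∀ ts x, 0 ≤ law ts x
  sum_one : ∀ ts, ∑ x, law ts x = 1

/-- The probability that `A` outputs `x` from `m` independent traces of `x`. -/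
noncomputable def successProb {n m : ℕ} (q : ℝ) (A : Estimator n m) (x : Fin n → Bool) : ℝ :=
  ∑ ks : Fin m → Fin n → Bool, (∏ j, keepWeight q (ks j)) * A.law (fun j => traceOf x (ks j)) x

/-- `m` traces suffice for worst-case reconstruction with probability at least `2/3`; `T_q(n)` is
the least such `m`. -/
def Reconstructs (q : ℝ) (n m : ℕ) : Prop :=
  ∃ A : Estimator n m, ∀ x, 2 / 3 ≤ successProb q A x

/-- Finitely supported functions on binary strings, with concatenation as product. -/
abbrev Alg := MonoidAlgebra ℝ (FreeMonoid Bool)

/-- The `ℓ¹` norm. -/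
noncomputable def nrm (f : Alg) : ℝ := f.coeff.sum fun _ r => |r|

/-- The trace law of one bit `b` with retention probability `p`. -/
noncomputable def bitT (p : ℝ) (b : Bool) : Alg :=
  MonoidAlgebra.single 1 (1 - p) + MonoidAlgebra.single (FreeMonoid.of b) p

/-- The trace law of a string with retention probability `p`. -/
noncomputable def tr (p : ℝ) (x : List Bool) : Alg := (x.map (bitT p)).prod

/-- Interface between the two halves: along lengths at most `2^(C·2^k)`, distinct words of equal
length whose trace laws are `2^(-R·C·2^(k+1))`-close. -/
def ClosePairs : Prop :=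
  ∀ R : ℕ, ∃ p₀ : ℝ, 0 < p₀ ∧ ∃ C : ℕ, 0 < C ∧ ∀ p : ℝ, 0 < p → p ≤ p₀ → ∀ k : ℕ,
    ∃ x y : List Bool, x.length = y.length ∧ x.length ≤ 2 ^ (C * 2 ^ k) ∧ x ≠ y ∧
      nrm (tr p x - tr p y) ≤ ((2 : ℝ) ^ (R * C * 2 ^ (k + 1)))⁻¹

end Vale.Agent.P321
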