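import Vale.Agent.P321.Lower

/-!
P321: some number of traces always suffices, so the sample complexity is a genuine minimum.
-/

open scoped BigOperators

namespace Vale.Agent.P321

variable {n : ℕ}

lemma sum_keepWeight_one (q : ℝ) : ∑ k : Fin n → Bool, keepWeight q k = 1 := by
  have := sum_keepWeight q (fun _ : Fin n => false) (fun _ => 1)
  rw [Ex_const] at this
  simpa using this

lemma keepWeight_nonneg {q : ℝ} (hq : 0 ≤ q) (hq1 : q ≤ 1) (k : Fin n → Bool) :
    0 ≤ keepWeight q k :=
  Finset.prod_nonneg fun i _ => by split_ifs <;> linarith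

lemma traceOf_all (x : Fin n → Bool) : traceOf x (fun _ => true) = List.ofFn x := by
  simp [traceOf, List.ofFn_eq_map]

lemma eq_all_of_traceOf {x z : Fin n → Bool} {k : Fin n → Bool}
    (h : traceOf x k = List.ofFn z) : k = fun _ => true := by
  have hl := congrArg List.length h
  rw [traceOf, List.length_map, List.length_ofFn] at hl
  have hf : (List.finRange n).filter (fun i => k i) = List.finRange n :=
    List.Sublist.eq_of_length List.filter_sublist (by simpa using hl)
  funext i
  exact (List.filter_eq_self.1 hf) i (List.mem_finRange i)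

/-- With enough traces, one of them is the string itself. -/
theorem reconstructs_exists {q : ℝ} (hq : 0 ≤ q) (hq1 : q < 1) (n : ℕ) :
    ∃ m, Reconstructs q n m := by
  classical
  have hpn : 0 < (1 - q) ^ n := pow_pos (by linarith) n
  have hpn1 : (1 - q) ^ n ≤ 1 := pow_le_one₀ (by linarith) (by linarith)
  obtain ⟨m, hm⟩ := exists_pow_lt_of_lt_one (x := (1 / 3 : ℝ)) (by norm_num)
    (show 1 - (1 - q) ^ n < 1 by linarith)
  let pick : (Fin m → List Bool) → (Fin n → Bool) := fun ts =>
    if h : ∃ z : Fin n → Bool, ∃ j, ts j = List.ofFn z then h.choose else fun _ => false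
  refine ⟨m, ⟨fun ts z => if z = pick ts then 1 else 0,
    fun ts z => by split_ifs <;> norm_num, fun ts => by simp⟩, fun x => ?_⟩
  have hw : ∀ ks : Fin m → Fin n → Bool, 0 ≤ ∏ j, keepWeight q (ks j) := fun ks =>
    Finset.prod_nonneg fun j _ => keepWeight_nonneg hq hq1.le _
  have hterm : ∀ ks : Fin m → Fin n → Bool,
      (∏ j, keepWeight q (ks j)) -
        (∏ j, (keepWeight q (ks j) * if ks j = (fun _ => true) then 0 else 1)) ≤
      (∏ j, keepWeight q (ks j)) *
        (if x = pick (fun j => traceOf x (ks j)) then 1 else 0) := by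
    intro ks
    by_cases hj : ∃ j, ks j = fun _ => true
    · obtain ⟨j, hj⟩ := hj
      have hex : ∃ z : Fin n → Bool, ∃ i, traceOf x (ks i) = List.ofFn z :=
        ⟨x, j, by rw [hj, traceOf_all]⟩
      have hz : x = pick (fun j => traceOf x (ks j)) := by
        obtain ⟨i, hi⟩ := hex.choose_spec
        have := eq_all_of_traceOf hi
        rw [this, traceOf_all] at hi
        simp only [pick, dif_pos hex]
        exact List.ofFn_injective hi
      rw [if_pos hz, mul_one]
      refine sub_le_self _ (le_of_eq (Finset.prod_eq_zero (Finset.mem_univ j) ?_).symm)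
      rw [if_pos hj, mul_zero]
    · push Not at hj
      simp only [if_neg (hj _), mul_one, sub_self]
      exact mul_nonneg (hw ks) (by split_ifs <;> norm_num)
  have hsum := Finset.sum_le_sum fun ks (_ : ks ∈ Finset.univ) => hterm ks
  rw [Finset.sum_sub_distrib, ← Fintype.sum_pow (fun k : Fin n → Bool => keepWeight q k) m,
    ← Fintype.sum_pow (fun k : Fin n → Bool => keepWeight q k *
      if k = (fun _ => true) then 0 else 1) m, sum_keepWeight_one, one_pow] at hsum
  have hfail : ∑ k : Fin n → Bool, keepWeight q k * (if k = (fun _ => true) then 0 else 1) =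
      1 - (1 - q) ^ n := by
    have h1 := Finset.add_sum_erase Finset.univ (fun k : Fin n → Bool => keepWeight q k)
      (Finset.mem_univ (fun _ : Fin n => true))
    rw [sum_keepWeight_one, show keepWeight q (fun _ : Fin n => true) = (1 - q) ^ n by
      simp [keepWeight]] at h1
    rw [← Finset.add_sum_erase Finset.univ _ (Finset.mem_univ (fun _ : Fin n => true)),
      if_pos rfl, mul_zero, zero_add]
    refine Eq.trans (Finset.sum_congr rfl fun k hk => ?_) (eq_sub_of_add_eq' h1)
    rw [if_neg (Finset.ne_of_mem_erase hk), mul_one]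
  rw [hfail] at hsum
  unfold successProb
  linarith

/-- The worst-case sample complexity `T_q(n)`. -/
noncomputable def sampleComplexity (q : ℝ) (n : ℕ) : ℕ := sInf {m | Reconstructs q n m}

/-- Lower bound on the sample complexity from close pairs. -/
theorem sampleComplexity_ge_pow (hcp : ClosePairs) (R : ℕ) :
    ∃ q₀ : ℝ, q₀ < 1 ∧ ∀ q : ℝ, q₀ ≤ q → q < 1 → ∃ N : ℕ, ∀ n ≥ N,
      (n : ℝ) ^ R ≤ sampleComplexity q n := by
  obtain ⟨q₀, h₀, h⟩ := lower_bound_of_closePairs hcp R
  refine ⟨max q₀ 0, max_lt h₀ one_pos, fun q hq hq1 => ?_⟩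
  obtain ⟨N, hN⟩ := h q (le_of_max_le_left hq) hq1
  exact ⟨N, fun n hn =>
    hN n hn _ (Nat.sInf_mem (reconstructs_exists (le_of_max_le_right hq) hq1 n))⟩

end Vale.Agent.P321
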