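import Vale.Agent.P321.Stage

/-!
The iteration: from the pair `0`, `1` at retention probability at most `2^(-a^2-1)`, the exponent
survives all stages.
-/

namespace Vale.Agent.P321

/-- Number of Thue–Morse levels at stage `k`. -/
def levels (a : ℕ) : ℕ → ℕ
  | 0 => a
  | k + 1 => (3 * levels a k + 1) / 2

lemma le_levels (a : ℕ) : ∀ k, a ≤ levels a k
  | 0 => le_rfl
  | k + 1 => (le_levels a k).trans (by show _ ≤ (3 * levels a k + 1) / 2; omega)

lemma good_base {p : ℝ} (h0 : 0 ≤ p) {a : ℕ} (hp : p ≤ 1 / 2 ^ (a * a + 1)) :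
    Good p [false] [true] (a * a) 0 := by
  classical
  have hp2 : 2 * p ≤ 1 / 2 ^ (a * a) := by
    rw [pow_succ] at hp
    rw [le_div_iff₀ (by positivity)] at hp ⊢
    linarith
  have hone : (1 : ℝ) / 2 ^ (a * a) ≤ 1 := by
    rw [div_le_one (by positivity)]; exact one_le_pow₀ (by norm_num)
  have htr : ∀ b, tr p [b] =
      MonoidAlgebra.single 1 (1 - p) + MonoidAlgebra.single (FreeMonoid.of b) p := fun b => by
    simp [tr, bitT]
  have hU := isProb_tr h0 (by linarith) [false]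
  refine ⟨rfl, by simp, by simp, ?_, ?_⟩
  · rw [← one_div, htr, htr, add_sub_add_left_eq_sub]
    refine ((nrm_sub _ _).trans ?_).trans hp2
    rw [nrm_single, nrm_single, abs_of_nonneg h0]
    linarith
  · refine (smooth_of_overlap hU 1 ?_).mono ?_
    · rw [pow_one, show tr p [false] ^ (1 + 1) - tr p [false] =
        tr p [false] * (tr p [false] - 1) by noncomm_ring]
      refine (hU.nrm_mul_left _).trans ?_
      rw [htr, MonoidAlgebra.one_def,
        show MonoidAlgebra.single (1 : FreeMonoid Bool) (1 - p) +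
            MonoidAlgebra.single (FreeMonoid.of false) p - MonoidAlgebra.single 1 (1 : ℝ) =
          MonoidAlgebra.single 1 (-p) + MonoidAlgebra.single (FreeMonoid.of false) p by
          rw [sub_eq_add_neg, ← MonoidAlgebra.single_neg, add_right_comm, ← MonoidAlgebra.single_add]
          ring_nf]
      refine (nrm_add _ _).trans ?_
      rw [nrm_single, nrm_single, abs_neg, abs_of_nonneg h0]
      linarith
    · norm_num
      nlinarith [Real.sq_sqrt (show (0 : ℝ) ≤ 2 by norm_num), Real.sqrt_nonneg (2 : ℝ)]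

lemma chain {a C F : ℕ} {p : ℝ} (h0 : 0 ≤ p) (h1 : p ≤ 1) (hp : p ≤ 1 / 2 ^ (a * a + 1))
    (ha : 200 ≤ a) (hC : 20 * a + 18 ≤ C) (hFC : 2 * C + 18 ≤ F)
    (hFa : F + 8 * a + 3 ≤ a * a) (k : ℕ) :
    ∃ x y E β, Good p x y E β ∧ E ≤ levels a k ^ 2 ∧ 2 ^ k * F + 8 * levels a k + 3 ≤ E ∧
      β + 20 * levels a k + 18 ≤ 2 ^ k * C := by
  induction k with
  | zero =>
    exact ⟨_, _, _, _, good_base h0 hp, by rw [levels, sq], by rw [levels, pow_zero]; omega,
      by rw [levels, pow_zero]; omega⟩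
  | succ k ih =>
    obtain ⟨x, y, E, β, hg, hE, hlo, hhi⟩ := ih
    set m := levels a k with hm
    have hma : 200 ≤ m := ha.trans (le_levels a k)
    have hpow : 1 ≤ 2 ^ k := Nat.one_le_two_pow
    have hcond : 2 * β + 6 * m + 21 ≤ E := by
      have := Nat.mul_le_mul_left (2 ^ k) hFC
      rw [Nat.mul_add, Nat.mul_left_comm] at this
      omega
    obtain ⟨x', y', hg'⟩ := stage h0 h1 hg (by omega) (by rw [← sq]; exact hE) hcond
    refine ⟨x', y', _, _, hg', ?_, ?_, ?_⟩
    · show _ ≤ ((3 * m + 1) / 2) ^ 2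
      have : 3 * m ≤ 2 * ((3 * m + 1) / 2) := by omega
      have h2 := Nat.pow_le_pow_left this 2
      rw [mul_pow, mul_pow] at h2
      omega
    · show _ + 8 * ((3 * m + 1) / 2) + 3 ≤ _
      rw [pow_succ, Nat.mul_right_comm]
      omega
    · show _ + 20 * ((3 * m + 1) / 2) + 18 ≤ _
      rw [pow_succ, Nat.mul_right_comm]
      omega

theorem closePairs : ClosePairs := by
  intro R
  obtain ⟨a, ha⟩ : ∃ a, a = 100 * (R + 1) + 100 := ⟨_, rfl⟩
  obtain ⟨C, hC⟩ : ∃ C, C = 20 * a + 18 := ⟨_, rfl⟩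
  obtain ⟨F, hF⟩ : ∃ F, F = 2 * (R + 1) * C + 18 := ⟨_, rfl⟩
  have hFC : 2 * C + 18 ≤ F := by rw [hF]; nlinarith
  have hFa : F + 8 * a + 3 ≤ a * a := by rw [hF, hC, ha]; nlinarith
  refine ⟨1 / 2 ^ (a * a + 1), by positivity, C, by omega, fun p hp0 hp k => ?_⟩
  have h1 : p ≤ 1 := hp.trans (by
    rw [div_le_one (by positivity)]; exact one_le_pow₀ (by norm_num))
  obtain ⟨x, y, E, β, hg, -, hlo, hhi⟩ := chain hp0.le h1 hp (by omega) (by omega) hFC hFa k
  refine ⟨x, y, hg.len, hg.short.trans (Nat.pow_le_pow_right (by norm_num) ?_), hg.ne,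
    hg.close.trans (inv_anti₀ (by positivity) (pow_le_pow_right₀ (by norm_num) ?_))⟩
  · rw [Nat.mul_comm]; omega
  · refine le_trans ?_ ((Nat.le_add_right _ _).trans ((Nat.le_add_right _ _).trans hlo))
    calc R * C * 2 ^ (k + 1) = 2 ^ k * (2 * R * C) := by rw [pow_succ]; ring
      _ ≤ 2 ^ k * F := Nat.mul_le_mul_left _ (by rw [hF]; nlinarith)

end Vale.Agent.P321
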