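import Vale.Agent.P321.Model

/-!
P321: close trace laws force many traces, and the sequence `ClosePairs` gives the bound at every
large length.
-/

open scoped BigOperators

namespace Vale.Agent.P321

variable {n : ℕ}

/-- Expectation of a statistic of `m` independent traces. -/
noncomputable def iidEx (q : ℝ) (x : Fin n → Bool) (m : ℕ) (g : (Fin m → List Bool) → ℝ) : ℝ :=
  ∑ ks : Fin m → Fin n → Bool, (∏ j, keepWeight q (ks j)) * g (fun j => traceOf x (ks j))

lemma iidEx_zero (q : ℝ) (x : Fin n → Bool) (g : (Fin 0 → List Bool) → ℝ) :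
    iidEx q x 0 g = g Fin.elim0 := by
  rw [iidEx, Fintype.sum_unique]
  simp only [Finset.univ_eq_empty, Finset.prod_empty, one_mul]
  exact congrArg g (funext fun j => j.elim0)

lemma iidEx_succ (q : ℝ) (x : Fin n → Bool) (m : ℕ) (g : (Fin (m + 1) → List Bool) → ℝ) :
    iidEx q x (m + 1) g =
      Ex (1 - q) (List.ofFn x) (fun t => iidEx q x m (fun ts => g (Fin.cons t ts))) := by
  rw [← sum_keepWeight, iidEx, ← (Fin.consEquiv fun _ : Fin (m + 1) => Fin n → Bool).sum_comp,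
    Fintype.sum_prod_type]
  refine Finset.sum_congr rfl fun k _ => ?_
  rw [iidEx, Finset.mul_sum]
  refine Finset.sum_congr rfl fun ks _ => ?_
  rw [show (Fin.consEquiv fun _ : Fin (m + 1) => Fin n → Bool) (k, ks) = Fin.cons k ks from rfl,
    Fin.prod_univ_succ]
  simp only [Fin.cons_zero, Fin.cons_succ, mul_assoc]
  congr 3
  funext j
  cases j using Fin.cases <;> simp

lemma Ex_mem {p : ℝ} (hp : 0 ≤ p) (hp1 : p ≤ 1) (x : List Bool) {φ : List Bool → ℝ}
    (h0 : ∀ w, 0 ≤ φ w) (h1 : ∀ w, φ w ≤ 1) : 0 ≤ Ex p x φ ∧ Ex p x φ ≤ 1 := by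
  have a := Ex_mono hp hp1 x (fun _ => 0) φ h0
  have b := Ex_mono hp hp1 x φ (fun _ => 1) h1
  rw [Ex_const] at a b
  exact ⟨a, b⟩

lemma iidEx_mem {q : ℝ} (hq : 0 ≤ q) (hq1 : q ≤ 1) (x : Fin n → Bool) :
    ∀ (m : ℕ) (g : (Fin m → List Bool) → ℝ), (∀ t, 0 ≤ g t) → (∀ t, g t ≤ 1) →
      0 ≤ iidEx q x m g ∧ iidEx q x m g ≤ 1
  | 0, g, h0, h1 => by rw [iidEx_zero]; exact ⟨h0 _, h1 _⟩
  | m + 1, g, h0, h1 => by
      rw [iidEx_succ]
      exact Ex_mem (by linarith) (by linarith) _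
        (fun t => (iidEx_mem hq hq1 x m _ (fun _ => h0 _) (fun _ => h1 _)).1)
        (fun t => (iidEx_mem hq hq1 x m _ (fun _ => h0 _) (fun _ => h1 _)).2)

lemma iidEx_add (q : ℝ) (x : Fin n → Bool) (m : ℕ) (g h : (Fin m → List Bool) → ℝ) :
    iidEx q x m (fun t => g t + h t) = iidEx q x m g + iidEx q x m h := by
  simp only [iidEx, mul_add, Finset.sum_add_distrib]

lemma iidEx_one {q : ℝ} (x : Fin n → Bool) : ∀ m : ℕ, iidEx q x m (fun _ => 1) = 1
  | 0 => by rw [iidEx_zero]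
  | m + 1 => by rw [iidEx_succ]; simp only [iidEx_one x m]; exact Ex_const _ _ _

/-- Hybrid argument: `m` traces are at most `m` times as informative as one. -/
lemma iidEx_close {q ε : ℝ} (hq : 0 ≤ q) (hq1 : q ≤ 1) (x y : Fin n → Bool)
    (hε : ∀ φ : List Bool → ℝ, (∀ w, 0 ≤ φ w) → (∀ w, φ w ≤ 1) →
      |Ex (1 - q) (List.ofFn x) φ - Ex (1 - q) (List.ofFn y) φ| ≤ ε) :
    ∀ (m : ℕ) (g : (Fin m → List Bool) → ℝ), (∀ t, 0 ≤ g t) → (∀ t, g t ≤ 1) →
      iidEx q x m g - iidEx q y m g ≤ m * ε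
  | 0, g, _, _ => by rw [iidEx_zero, iidEx_zero]; simp
  | m + 1, g, h0, h1 => by
      rw [iidEx_succ, iidEx_succ]
      set A := fun t => iidEx q x m (fun ts => g (Fin.cons t ts)) with hA
      set B := fun t => iidEx q y m (fun ts => g (Fin.cons t ts)) with hB
      have hmA := fun t => iidEx_mem hq hq1 x m (fun ts => g (Fin.cons t ts))
        (fun _ => h0 _) (fun _ => h1 _)
      have h2 := (abs_le.1 (hε A (fun t => (hmA t).1) (fun t => (hmA t).2))).2
      have h3 : Ex (1 - q) (List.ofFn y) A ≤ Ex (1 - q) (List.ofFn y) (fun t => B t + m * ε) :=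
        Ex_mono (by linarith) (by linarith) _ _ _ fun t => by
          have := iidEx_close hq hq1 x y hε m (fun ts => g (Fin.cons t ts))
            (fun _ => h0 _) (fun _ => h1 _)
          simp only [hA, hB]; linarith
      rw [Ex_add, Ex_const] at h3
      push_cast
      linarith

lemma Estimator.law_le_one {m : ℕ} (A : Estimator n m) (ts : Fin m → List Bool)
    (x : Fin n → Bool) : A.law ts x ≤ 1 := by
  rw [← A.sum_one ts]
  exact Finset.single_le_sum (fun y _ => A.nonneg ts y) (Finset.mem_univ x)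

/-- Le Cam's two-point bound. -/
lemma le_mul_of_reconstructs {q ε : ℝ} (hq : 0 ≤ q) (hq1 : q ≤ 1) {m : ℕ}
    (hrec : Reconstructs q n m) (x y : Fin n → Bool) (hne : x ≠ y)
    (hε : ∀ φ : List Bool → ℝ, (∀ w, 0 ≤ φ w) → (∀ w, φ w ≤ 1) →
      |Ex (1 - q) (List.ofFn x) φ - Ex (1 - q) (List.ofFn y) φ| ≤ ε) :
    1 / 3 ≤ (m : ℝ) * ε := by
  obtain ⟨A, hA⟩ := hrec
  have hx : 2 / 3 ≤ iidEx q x m (fun t => A.law t x) := hA x
  have hy : 2 / 3 ≤ iidEx q y m (fun t => A.law t y) := hA y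
  have hc := iidEx_close hq hq1 x y hε m (fun t => A.law t x) (fun t => A.nonneg t x)
    (fun t => A.law_le_one t x)
  have hsum : iidEx q y m (fun t => A.law t x) + iidEx q y m (fun t => A.law t y) ≤ 1 := by
    rw [← iidEx_add]
    refine (iidEx_mem hq hq1 y m _ (fun t => add_nonneg (A.nonneg t x) (A.nonneg t y))
      fun t => ?_).2
    rw [← Finset.sum_pair (f := fun z => A.law t z) hne, ← A.sum_one t]
    exact Finset.sum_le_sum_of_subset_of_nonneg (Finset.subset_univ _) fun z _ _ => A.nonneg t z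
  linarith

/-- For every exponent `R`, as soon as the deletion probability is close enough to one, at least
`n^R` traces are needed at every large length. -/
theorem lower_bound_of_closePairs (hcp : ClosePairs) (R : ℕ) :
    ∃ q₀ : ℝ, q₀ < 1 ∧ ∀ q : ℝ, q₀ ≤ q → q < 1 → ∃ N : ℕ, ∀ n ≥ N, ∀ m : ℕ,
      Reconstructs q n m → (n : ℝ) ^ R ≤ m := by
  obtain ⟨p₀, hp₀, C, hC, h⟩ := hcp (R + 1)
  refine ⟨1 - min p₀ 1, by linarith [lt_min hp₀ one_pos], fun q hq hq1 =>
    ⟨max 3 (2 ^ C), fun n hn m hm => ?_⟩⟩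
  have hn3 : 3 ≤ n := le_of_max_le_left hn
  have hnC : 2 ^ C ≤ n := le_of_max_le_right hn
  have hq0 : 0 ≤ q := by linarith [min_le_right p₀ 1]
  have hex : ∃ k, n < 2 ^ (C * 2 ^ k) := by
    refine ⟨n, Nat.lt_of_lt_of_le n.lt_two_pow_self (Nat.pow_le_pow_right two_pos ?_)⟩
    calc n ≤ 2 ^ n := n.lt_two_pow_self.le
      _ ≤ C * 2 ^ n := Nat.le_mul_of_pos_left _ hC
  obtain ⟨k, hk⟩ : ∃ k, Nat.find hex = k + 1 := by
    refine ⟨Nat.find hex - 1, ?_⟩
    have : Nat.find hex ≠ 0 := fun h0 => by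
      have := Nat.find_spec hex
      rw [h0, pow_zero, mul_one] at this
      omega
    omega
  have hlow : 2 ^ (C * 2 ^ k) ≤ n := le_of_not_gt (Nat.find_min hex (by omega))
  have hup : n < 2 ^ (C * 2 ^ (k + 1)) := hk ▸ Nat.find_spec hex
  obtain ⟨x, y, hlen, hlx, hne, hε⟩ :=
    h (1 - q) (by linarith) (by linarith [min_le_left p₀ 1]) k
  set z : List Bool := List.replicate (n - x.length) false with hz
  have hln : (x ++ z).length = n := by simp [z]; omega
  have hlny : (y ++ z).length = n := by simp [z]; omega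
  obtain ⟨u, hu⟩ : ∃ u : Fin n → Bool, List.ofFn u = x ++ z :=
    ⟨fun i => (x ++ z).get (i.cast hln.symm), List.ext_getElem (by simp [hln]) (by simp)⟩
  obtain ⟨v, hv⟩ : ∃ v : Fin n → Bool, List.ofFn v = y ++ z :=
    ⟨fun i => (y ++ z).get (i.cast hlny.symm), List.ext_getElem (by simp [hlny]) (by simp)⟩
  have huv : u ≠ v := fun e => hne (List.append_cancel_right (by rw [← hu, ← hv, e]))
  set ε : ℝ := ((2 : ℝ) ^ ((R + 1) * C * 2 ^ (k + 1)))⁻¹ with hεdef
  have h13 := le_mul_of_reconstructs hq0 hq1.le hm _ _ huv (ε := ε) fun φ h0 h1 => by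
    rw [hu, hv, Ex_append, Ex_append]
    refine (Ex_close x y _ (fun w => ?_) fun w => ?_).trans hε
    · exact (Ex_mem (by linarith) (by linarith) z (fun u => h0 _) fun u => h1 _).1
    · exact (Ex_mem (by linarith) (by linarith) z (fun u => h0 _) fun u => h1 _).2
  have hpow : (n : ℝ) ^ (R + 1) ≤ (2 : ℝ) ^ ((R + 1) * C * 2 ^ (k + 1)) := by
    rw [show (R + 1) * C * 2 ^ (k + 1) = C * 2 ^ (k + 1) * (R + 1) by ring, pow_mul]
    exact pow_le_pow_left₀ (by positivity) (by exact_mod_cast hup.le) _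
  have hbig : (2 : ℝ) ^ ((R + 1) * C * 2 ^ (k + 1)) ≤ 3 * m := by
    have hpos : (0 : ℝ) < (2 : ℝ) ^ ((R + 1) * C * 2 ^ (k + 1)) := by positivity
    rw [hεdef, ← div_eq_mul_inv, div_le_div_iff₀ (by norm_num) hpos] at h13
    linarith
  have hn' : (3 : ℝ) ≤ n := by exact_mod_cast hn3
  have : 3 * (n : ℝ) ^ R ≤ (n : ℝ) ^ (R + 1) := by
    rw [pow_succ]; nlinarith [pow_nonneg (by linarith : (0 : ℝ) ≤ n) R]
  linarith

end Vale.Agent.P321
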