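import Vale.Agent.P321.Defs

/-!
P321: the retention-pattern model, the recursive expectation of a trace statistic, and its
expression through the `ℓ¹` algebra.
-/

open scoped BigOperators
open MonoidAlgebra (single)

namespace Vale.Agent.P321

/-- Expectation of `φ(trace)` for a trace of `x`, computed bit by bit. -/
noncomputable def Ex (p : ℝ) : List Bool → (List Bool → ℝ) → ℝ
  | [], φ => φ []
  | b :: x, φ => (1 - p) * Ex p x φ + p * Ex p x (fun w => φ (b :: w))

lemma Ex_append (p : ℝ) : ∀ (x z : List Bool) (φ : List Bool → ℝ),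
    Ex p (x ++ z) φ = Ex p x (fun w => Ex p z (fun u => φ (w ++ u)))
  | [], z, φ => by simp [Ex]
  | b :: x, z, φ => by
      simp only [List.cons_append, Ex]
      rw [Ex_append p x z φ, Ex_append p x z (fun w => φ (b :: w))]

lemma Ex_const (p c : ℝ) : ∀ x : List Bool, Ex p x (fun _ => c) = c
  | [] => by simp [Ex]
  | b :: x => by simp only [Ex]; rw [Ex_const p c x]; ring

lemma Ex_mono {p : ℝ} (hp : 0 ≤ p) (hp1 : p ≤ 1) : ∀ (x : List Bool) (φ ψ : List Bool → ℝ),
    (∀ w, φ w ≤ ψ w) → Ex p x φ ≤ Ex p x ψ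
  | [], φ, ψ, h => h []
  | b :: x, φ, ψ, h => by
      simp only [Ex]
      have h1 := Ex_mono hp hp1 x φ ψ h
      have h2 := Ex_mono hp hp1 x (fun w => φ (b :: w)) (fun w => ψ (b :: w)) fun w => h _
      have := mul_le_mul_of_nonneg_left h1 (by linarith : (0 : ℝ) ≤ 1 - p)
      have := mul_le_mul_of_nonneg_left h2 hp
      linarith

lemma Ex_add (p : ℝ) : ∀ (x : List Bool) (φ ψ : List Bool → ℝ),
    Ex p x (fun w => φ w + ψ w) = Ex p x φ + Ex p x ψ
  | [], φ, ψ => by simp [Ex]
  | b :: x, φ, ψ => by
      simp only [Ex]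
      rw [Ex_add p x φ ψ, Ex_add p x (fun w => φ (b :: w)) (fun w => ψ (b :: w))]
      ring

/-- Pairing of an element of the algebra with a statistic. -/
noncomputable def ev (f : Alg) (φ : List Bool → ℝ) : ℝ :=
  f.coeff.sum fun w r => r * φ (FreeMonoid.toList w)

lemma ev_add (f g : Alg) (φ : List Bool → ℝ) : ev (f + g) φ = ev f φ + ev g φ := by
  simp only [ev, MonoidAlgebra.coeff_add]
  exact Finsupp.sum_add_index' (fun _ => zero_mul _) (fun _ _ _ => add_mul _ _ _)

lemma ev_sub (f g : Alg) (φ : List Bool → ℝ) : ev (f - g) φ = ev f φ - ev g φ := by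
  have h := ev_add (f - g) g φ
  rw [sub_add_cancel] at h
  linarith

lemma ev_single (w : FreeMonoid Bool) (r : ℝ) (φ : List Bool → ℝ) :
    ev (single w r) φ = r * φ (FreeMonoid.toList w) := by
  simp [ev]

lemma ev_one (φ : List Bool → ℝ) : ev (1 : Alg) φ = φ [] := by
  rw [MonoidAlgebra.one_def, ev_single]; simp

lemma ev_single_mul (w : FreeMonoid Bool) (r : ℝ) (f : Alg) (φ : List Bool → ℝ) :
    ev (single w r * f) φ = r * ev f (fun u => φ (FreeMonoid.toList w ++ u)) := by
  induction f using MonoidAlgebra.induction_linear with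
  | zero => simp [ev]
  | add f g hf hg => rw [mul_add, ev_add, hf, hg, ev_add]; ring
  | single a s => rw [MonoidAlgebra.single_mul_single, ev_single, ev_single]; simp; ring

lemma ev_tr (p : ℝ) : ∀ (x : List Bool) (φ : List Bool → ℝ), ev (tr p x) φ = Ex p x φ
  | [], φ => by simp [tr, Ex, ev_one]
  | b :: x, φ => by
      have h : tr p (b :: x) = bitT p b * tr p x := by simp [tr]
      rw [h, bitT, add_mul, ev_add, ev_single_mul, ev_single_mul, ev_tr p x, ev_tr p x]
      simp [Ex]

lemma abs_ev_le (f : Alg) (φ : List Bool → ℝ) (hφ : ∀ w, |φ w| ≤ 1) : |ev f φ| ≤ nrm f := by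
  unfold ev nrm Finsupp.sum
  refine (Finset.abs_sum_le_sum_abs _ _).trans (Finset.sum_le_sum fun w _ => ?_)
  rw [abs_mul]
  exact mul_le_of_le_one_right (abs_nonneg _) (hφ _)

/-- Two strings with close trace laws give close expectations of every `[0,1]` statistic. -/
lemma Ex_close {p : ℝ} (x y : List Bool) (φ : List Bool → ℝ) (h0 : ∀ w, 0 ≤ φ w)
    (h1 : ∀ w, φ w ≤ 1) : |Ex p x φ - Ex p y φ| ≤ nrm (tr p x - tr p y) := by
  rw [← ev_tr, ← ev_tr, ← ev_sub]
  exact abs_ev_le _ _ fun w => abs_le.2 ⟨by linarith [h0 w], h1 w⟩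

/-- The retention-pattern sum is the recursive expectation. -/
lemma sum_keepWeight (q : ℝ) : ∀ {n : ℕ} (x : Fin n → Bool) (φ : List Bool → ℝ),
    ∑ k : Fin n → Bool, keepWeight q k * φ (traceOf x k) = Ex (1 - q) (List.ofFn x) φ
  | 0, x, φ => by
      rw [Fintype.sum_unique, List.ofFn_zero]
      simp [keepWeight, traceOf, Ex]
  | n + 1, x, φ => by
      have ht : ∀ (b : Bool) (k : Fin n → Bool), traceOf x (Fin.cons b k) =
          if b then x 0 :: traceOf (fun i => x i.succ) k else traceOf (fun i => x i.succ) k := by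
        intro b k
        cases b <;>
          simp [traceOf, List.finRange_succ, List.filter_map, Function.comp_def]
      rw [← (Fin.consEquiv fun _ : Fin (n + 1) => Bool).sum_comp, Fintype.sum_prod_type,
        Fintype.sum_bool, List.ofFn_succ, Ex]
      have h : ∀ (b : Bool) (k : Fin n → Bool),
          keepWeight q ((Fin.consEquiv fun _ : Fin (n + 1) => Bool) (b, k)) *
            φ (traceOf x ((Fin.consEquiv fun _ : Fin (n + 1) => Bool) (b, k))) =
          (if b then 1 - q else q) * (keepWeight q k *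
            φ (if b then x 0 :: traceOf (fun i => x i.succ) k
              else traceOf (fun i => x i.succ) k)) := by
        intro b k
        rw [show (Fin.consEquiv fun _ : Fin (n + 1) => Bool) (b, k) = Fin.cons b k from rfl, ht]
        simp [keepWeight, Fin.prod_univ_succ, mul_assoc]
      simp only [h, if_true, Bool.false_eq_true, if_false, ← Finset.mul_sum]
      rw [sum_keepWeight q (fun i => x i.succ) (fun w => φ (x 0 :: w)),
        sum_keepWeight q (fun i => x i.succ) φ, sub_sub_cancel]
      ring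

end Vale.Agent.P321
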