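import Vale.Agent.P321.Alg

/-!
One squaring stage: Thue–Morse words in two cells `x`, `y`, padded by long runs of the cell `x`.
The leading term is a nested commutator with the padding and is tiny by smoothing; the rest is
quadratic in the distance of the two cells.
-/

namespace Vale.Agent.P321

/-- Thue–Morse words in the two cells `x`, `y`. -/
def tm (x y : List Bool) : ℕ → List Bool
  | 0 => x
  | j + 1 => tm x y j ++ tm y x j

/-- `k` copies of the cell `x`. -/
def block (x : List Bool) (k : ℕ) : List Bool := (List.replicate k x).flatten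

lemma length_block (x : List Bool) (k : ℕ) : (block x k).length = k * x.length := by
  simp [block]

lemma tr_block (p : ℝ) (x : List Bool) : ∀ k, tr p (block x k) = tr p x ^ k
  | 0 => by simp [block, tr]
  | k + 1 => by
    rw [pow_succ', ← tr_block p x k, ← tr_append]
    simp [block, List.replicate_succ]

lemma length_tm : ∀ (j : ℕ) (x y : List Bool), x.length = y.length →
    (tm x y j).length = 2 ^ j * x.length
  | 0, x, y, _ => by simp [tm]
  | j + 1, x, y, h => by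
    rw [tm, List.length_append, length_tm j x y h, length_tm j y x h.symm, ← h]; ring

lemma tm_ne : ∀ (j : ℕ) (x y : List Bool), x.length = y.length → x ≠ y → tm x y j ≠ tm y x j
  | 0, _, _, _, hne => hne
  | j + 1, x, y, h, hne => fun e => tm_ne j x y h hne
      (List.append_inj e (by rw [length_tm j x y h, length_tm j y x h.symm, h])).1

lemma isProb_tm {p : ℝ} (h0 : 0 ≤ p) (h1 : p ≤ 1) (x y : List Bool) (j : ℕ) :
    IsProb (tr p (tm x y j)) := isProb_tr h0 h1 _

/-- Both Thue–Morse words are `2^j ε` close to `U^(2^j)`. -/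
lemma tm_near {p : ℝ} (h0 : 0 ≤ p) (h1 : p ≤ 1) (x y : List Bool) : ∀ j,
    nrm (tr p (tm x y j) - tr p x ^ 2 ^ j) ≤ 2 ^ j * nrm (tr p x - tr p y) ∧
      nrm (tr p (tm y x j) - tr p x ^ 2 ^ j) ≤ 2 ^ j * nrm (tr p x - tr p y) := by
  intro j
  induction j with
  | zero =>
    refine ⟨?_, ?_⟩
    · simpa [tm, nrm_zero] using nrm_nonneg _
    · simp [tm, nrm_sub_comm]
  | succ j ih =>
    set U := tr p x
    set X := tr p (tm x y j)
    set Y := tr p (tm y x j)
    have hU := (isProb_tr h0 h1 x).pow (2 ^ j)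
    have step : ∀ Z W : Alg, IsProb W → nrm (Z - U ^ 2 ^ j) ≤ 2 ^ j * nrm (tr p x - tr p y) →
        nrm (W - U ^ 2 ^ j) ≤ 2 ^ j * nrm (tr p x - tr p y) →
        nrm (Z * W - U ^ 2 ^ (j + 1)) ≤ 2 ^ (j + 1) * nrm (tr p x - tr p y) := by
      intro Z W hW hZ hWn
      rw [show Z * W - U ^ 2 ^ (j + 1) = (Z - U ^ 2 ^ j) * W + U ^ 2 ^ j * (W - U ^ 2 ^ j) by
        rw [pow_succ 2 j, pow_mul, sq]; noncomm_ring]
      refine (nrm_add _ _).trans ((add_le_add (hW.nrm_mul_right _) (hU.nrm_mul_left _)).trans ?_)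
      rw [pow_succ]
      linarith
    simp only [tm, tr_append]
    exact ⟨step _ _ (isProb_tm h0 h1 y x j) ih.1 ih.2, step _ _ (isProb_tm h0 h1 x y j) ih.2 ih.1⟩

/-- The two Thue–Morse words are `2^j ε` close. -/
lemma tm_diff {p : ℝ} (h0 : 0 ≤ p) (h1 : p ≤ 1) (x y : List Bool) : ∀ j,
    nrm (tr p (tm x y j) - tr p (tm y x j)) ≤ 2 ^ j * nrm (tr p x - tr p y) := by
  intro j
  induction j with
  | zero => simp [tm]
  | succ j ih =>
    set X := tr p (tm x y j)
    set Y := tr p (tm y x j)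
    have hY : IsProb Y := isProb_tm h0 h1 y x j
    simp only [tm, tr_append]
    rw [show X * Y - Y * X = (X - Y) * Y - Y * (X - Y) by noncomm_ring]
    refine (nrm_sub _ _).trans ((add_le_add (hY.nrm_mul_right _) (hY.nrm_mul_left _)).trans ?_)
    rw [pow_succ]
    linarith

/-- Inside padding each level gains the factor `2δ`, up to a second-order error. -/
lemma tm_padded {p : ℝ} (h0 : 0 ≤ p) (h1 : p ≤ 1) (x y : List Bool) {m N : ℕ} {δ : ℝ}
    (hδ0 : 0 ≤ δ) (hδ : 2 * δ ≤ 1)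
    (hsh : ∀ j < m, nrm (tr p x ^ N * (1 - tr p x ^ 2 ^ j)) ≤ δ) :
    ∀ j ≤ m, ∀ a b, j * N ≤ a → j * N ≤ b →
      nrm (tr p x ^ a * (tr p (tm x y j) - tr p (tm y x j)) * tr p x ^ b) ≤
        (2 * δ) ^ j * nrm (tr p x - tr p y) + 4 ^ j * nrm (tr p x - tr p y) ^ 2 := by
  set ε := nrm (tr p x - tr p y)
  have hε : 0 ≤ ε := nrm_nonneg _
  have hU := isProb_tr h0 h1 x
  intro j
  induction j with
  | zero =>
    intro _ a b _ _
    refine ((hU.pow b).nrm_mul_right _).trans (((hU.pow a).nrm_mul_left _).trans ?_)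
    simp only [tm, pow_zero, one_mul]
    change ε ≤ _
    nlinarith [sq_nonneg ε]
  | succ j ih =>
    intro hj a b ha hb
    set U := tr p x
    set X := tr p (tm x y j)
    set Y := tr p (tm y x j)
    set h := 2 ^ j
    set L := (2 * δ) ^ j * ε + 4 ^ j * ε ^ 2
    obtain ⟨a', rfl⟩ : ∃ a', a = N + a' := ⟨a - N, by rw [Nat.succ_mul] at ha; omega⟩
    obtain ⟨b', rfl⟩ : ∃ b', b = b' + N := ⟨b - N, by rw [Nat.succ_mul] at hb; omega⟩
    rw [Nat.succ_mul] at ha hb
    have e : U ^ (N + a') * (X * Y - Y * X) * U ^ (b' + N) =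
        U ^ (N + a') * (X - Y) * U ^ b' * (U ^ N * (U ^ h - 1)) +
        U ^ N * (1 - U ^ h) * (U ^ a' * (X - Y) * U ^ (b' + N)) +
        U ^ (N + a') * ((X - Y) * (Y - U ^ h) - (Y - U ^ h) * (X - Y)) * U ^ (b' + N) := by
      have c1 : U ^ h * U ^ (b' + N) = U ^ (b' + N) * U ^ h := (Commute.pow_pow_self U _ _).eq
      have c2 : U ^ h * U ^ a' = U ^ a' * U ^ h := (Commute.pow_pow_self U _ _).eq
      have i1 : U ^ (N + a') * (X - Y) * U ^ b' * (U ^ N * (U ^ h - 1)) =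
          U ^ (N + a') * ((X - Y) * U ^ h) * U ^ (b' + N) -
            U ^ (N + a') * (X - Y) * U ^ (b' + N) := by
        simp only [mul_assoc]
        rw [← mul_assoc (U ^ b') (U ^ N), ← pow_add, mul_sub (U ^ (b' + N)), mul_one, ← c1]
        simp only [mul_sub, sub_mul]
      have i2 : U ^ N * (1 - U ^ h) * (U ^ a' * (X - Y) * U ^ (b' + N)) =
          U ^ (N + a') * (X - Y) * U ^ (b' + N) -
            U ^ (N + a') * (U ^ h * (X - Y)) * U ^ (b' + N) := by
        simp only [mul_assoc]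
        rw [sub_mul (1 : Alg), one_mul, ← mul_assoc (U ^ h) (U ^ a'), c2, mul_sub (U ^ N)]
        simp only [pow_add, mul_assoc]
      rw [i1, i2]
      noncomm_ring
    simp only [tm, tr_append]
    rw [e]
    have hN : nrm (U ^ N * (U ^ h - 1)) ≤ δ := by
      rw [show U ^ N * (U ^ h - 1) = -(U ^ N * (1 - U ^ h)) by noncomm_ring, nrm_neg]
      exact hsh j (by omega)
    have hL : 0 ≤ L := by positivity
    have h1' : nrm (U ^ (N + a') * (X - Y) * U ^ b' * (U ^ N * (U ^ h - 1))) ≤ L * δ :=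
      (nrm_mul _ _).trans (mul_le_mul (ih (by omega) _ _ (by omega) (by omega)) hN
        (nrm_nonneg _) hL)
    have h2' : nrm (U ^ N * (1 - U ^ h) * (U ^ a' * (X - Y) * U ^ (b' + N))) ≤ δ * L :=
      (nrm_mul _ _).trans (mul_le_mul (hsh j (by omega)) (ih (by omega) _ _ (by omega) (by omega))
        (nrm_nonneg _) hδ0)
    have h3' : nrm (U ^ (N + a') * ((X - Y) * (Y - U ^ h) - (Y - U ^ h) * (X - Y)) *
        U ^ (b' + N)) ≤ 2 * (4 ^ j * ε ^ 2) := by
      refine ((hU.pow _).nrm_mul_right _).trans (((hU.pow _).nrm_mul_left _).trans ?_)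
      have d1 := tm_diff h0 h1 x y j
      have d2 := (tm_near h0 h1 x y j).2
      have hm := mul_le_mul d1 d2 (nrm_nonneg _) (by positivity)
      have e4 : (2 : ℝ) ^ j * ε * (2 ^ j * ε) = 4 ^ j * ε ^ 2 := by
        rw [show (4 : ℝ) = 2 * 2 by norm_num, mul_pow]; ring
      refine (nrm_sub _ _).trans ?_
      refine (add_le_add (nrm_mul _ _) (nrm_mul _ _)).trans ?_
      rw [mul_comm (nrm (Y - _))]
      change nrm (X - Y) * nrm (Y - U ^ h) ≤ _ at hm
      linarith [hm, e4]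
    refine (nrm_add _ _).trans ((add_le_add ((nrm_add _ _).trans (add_le_add h1' h2')) h3').trans ?_)
    simp only [L, pow_succ]
    have : 0 ≤ (4 : ℝ) ^ j * ε ^ 2 := by positivity
    nlinarith

/-- A word close to a power of a smooth one is smooth. -/
lemma smooth_of_near {U W : Alg} {C η : ℝ} {K b : ℕ} (hU : IsProb U) (hW : IsProb W)
    (hs : Smooth U C) (hb : 1 ≤ K * b) (hn : nrm (W - U ^ K) ≤ η)
    (h1 : (2 * b + 1 : ℝ) * η ≤ 1 / 2) (h2 : (K : ℝ) * (C / Real.sqrt (K * b)) ≤ 1 / 2) :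
    Smooth W (4 * Real.sqrt (b + 1)) := by
  refine smooth_of_overlap hW b ?_
  have hp : ∀ i : ℕ, nrm (W ^ i - U ^ (K * i)) ≤ i * η := by
    intro i
    induction i with
    | zero => simp [nrm_zero]
    | succ i ih =>
      rw [show W ^ (i + 1) - U ^ (K * (i + 1)) =
          (W ^ i - U ^ (K * i)) * W + U ^ (K * i) * (W - U ^ K) by
        rw [pow_succ, Nat.mul_succ, pow_add]; noncomm_ring]
      refine (nrm_add _ _).trans
        ((add_le_add (hW.nrm_mul_right _) ((hU.pow _).nrm_mul_left _)).trans ?_)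
      push_cast
      linarith
  rw [show W ^ (b + 1) - W ^ b = (W ^ (b + 1) - U ^ (K * (b + 1))) +
      (U ^ (K * b) - W ^ b) - U ^ (K * b) * (1 - U ^ K) by
    rw [Nat.mul_succ, pow_add U]; noncomm_ring]
  have hq : nrm (U ^ (K * b) - W ^ b) ≤ b * η := by rw [nrm_sub_comm]; exact hp b
  refine (nrm_sub _ _).trans (le_trans (add_le_add ((nrm_add _ _).trans (add_le_add (hp (b + 1)) hq))
    (hs.shift hU K hb)) ?_)
  push_cast at h2 ⊢
  linarith

/-- The state of the iteration: two words of length at most `2^β` at distance at most `2^(-E)`,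
the first one `8 √(2^β)`-smooth. -/
structure Good (p : ℝ) (x y : List Bool) (E β : ℕ) : Prop where
  len : x.length = y.length
  ne : x ≠ y
  short : x.length ≤ 2 ^ β
  close : nrm (tr p x - tr p y) ≤ ((2 : ℝ) ^ E)⁻¹
  smooth : Smooth (tr p x) (8 * Real.sqrt (2 ^ β))

lemma close_bound {E m : ℕ} (hEm : E ≤ m * m) (hE : 2 * m + 3 ≤ E) {ε : ℝ} (hε : 0 ≤ ε)
    (hg : ε ≤ ((2 : ℝ) ^ E)⁻¹) :
    (1 / (2 : ℝ) ^ m) ^ m * ε + 4 ^ m * ε ^ 2 ≤ ((2 : ℝ) ^ (2 * E - 2 * m - 3))⁻¹ := by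
  set e := ((2 : ℝ) ^ E)⁻¹
  have he : (1 / (2 : ℝ) ^ m) ^ m ≤ e := by
    rw [div_pow, one_pow, ← pow_mul, one_div]
    exact inv_anti₀ (by positivity) (by gcongr; norm_num)
  have he0 : 0 ≤ e := by positivity
  have h4 : (1 : ℝ) ≤ 4 ^ m := one_le_pow₀ (by norm_num)
  calc (1 / (2 : ℝ) ^ m) ^ m * ε + 4 ^ m * ε ^ 2 ≤ e * e + 4 ^ m * e ^ 2 := by
        gcongr
    _ ≤ 2 * 4 ^ m * e ^ 2 := by nlinarith [sq_nonneg e]
    _ ≤ _ := by
        rw [← one_div, le_div_iff₀ (by positivity)]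
        simp only [e, inv_pow, ← pow_mul]
        rw [mul_right_comm, mul_inv_le_iff₀ (by positivity), one_mul,
          show (4 : ℝ) = 2 ^ 2 by norm_num, ← pow_mul, ← pow_succ', ← pow_add]
        exact pow_le_pow_right₀ (by norm_num) (by omega)

lemma near_bound {E β' m : ℕ} (hE : β' + m + 3 ≤ E) {ε : ℝ} (hε : 0 ≤ ε) (hg : ε ≤ ((2 : ℝ) ^ E)⁻¹) :
    (2 * 2 ^ β' + 1 : ℝ) * (2 ^ m * ε) ≤ 1 / 2 := by
  have h3 : (2 * 2 ^ β' + 1 : ℝ) ≤ 2 ^ (β' + 2) := by
    rw [pow_add]; nlinarith [one_le_pow₀ (M₀ := ℝ) (a := 2) (by norm_num) (n := β')]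
  calc (2 * 2 ^ β' + 1 : ℝ) * (2 ^ m * ε) ≤ 2 ^ (β' + 2) * (2 ^ m * ((2 : ℝ) ^ E)⁻¹) := by
        gcongr
    _ = 2 ^ (β' + 2 + m) / 2 ^ E := by rw [pow_add _ (β' + 2)]; ring
    _ ≤ _ := by
        rw [div_le_iff₀ (by positivity)]
        have : (2 : ℝ) ^ (β' + 2 + m + 1) ≤ 2 ^ E := pow_le_pow_right₀ (by norm_num) (by omega)
        rw [pow_succ] at this
        linarith

lemma shift_bound {K β β' m : ℕ} (hKpos : 0 < K) (hK : K ≤ 2 ^ (β + 5 * m + 10))
    (hβ' : β' = 2 * β + 5 * m + 18) :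
    (K : ℝ) * (8 * Real.sqrt (2 ^ β) / Real.sqrt (K * 2 ^ β')) ≤ 1 / 2 := by
  have hk : (256 * 2 ^ β * K : ℝ) ≤ 2 ^ β' := by
    have : 256 * 2 ^ β * K ≤ 2 ^ β' := by
      calc 256 * 2 ^ β * K ≤ 2 ^ 8 * 2 ^ β * 2 ^ (β + 5 * m + 10) := by gcongr; norm_num
        _ = 2 ^ β' := by rw [← pow_add, ← pow_add]; congr 1; omega
    exact_mod_cast this
  have hkpos : (0 : ℝ) < K := by exact_mod_cast hKpos
  rw [mul_div_assoc', div_le_iff₀ (by positivity)]
  refine le_of_pow_le_pow_left₀ two_ne_zero (by positivity) ?_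
  rw [mul_pow, mul_pow, mul_pow, Real.sq_sqrt (by positivity), Real.sq_sqrt (by positivity)]
  nlinarith

lemma const_bound (β' : ℕ) :
    4 * Real.sqrt ((2 : ℝ) ^ β' + 1) ≤ 8 * Real.sqrt (2 ^ β') := by
  refine le_of_pow_le_pow_left₀ two_ne_zero (by positivity) ?_
  rw [mul_pow, mul_pow, Real.sq_sqrt (by positivity), Real.sq_sqrt (by positivity)]
  nlinarith [one_le_pow₀ (M₀ := ℝ) (a := 2) (by norm_num) (n := β')]


theorem stage {p : ℝ} (h0 : 0 ≤ p) (h1 : p ≤ 1) {x y : List Bool} {E β m : ℕ}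
    (hg : Good p x y E β) (hm : 1 ≤ m) (hEm : E ≤ m * m) (hE : 2 * β + 6 * m + 21 ≤ E) :
    ∃ x' y', Good p x' y' (2 * E - 2 * m - 3) (2 * β + 5 * m + 18) := by
  set N := 2 ^ (β + 4 * m + 8)
  set P := m * N
  set U := tr p x
  set ε := nrm (tr p x - tr p y)
  have hε : 0 ≤ ε := nrm_nonneg _
  have hU := isProb_tr h0 h1 x
  have hNpos : 0 < N := by positivity
  have hsh : ∀ j < m, nrm (U ^ N * (1 - U ^ 2 ^ j)) ≤ 1 / 2 ^ (m + 1) := by
    intro j hj
    refine (hg.smooth.shift hU (2 ^ j) hNpos).trans ?_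
    have hs : Real.sqrt (N : ℝ) = Real.sqrt (2 ^ β) * 2 ^ (2 * m + 4) := by
      rw [show (N : ℝ) = 2 ^ β * (2 ^ (2 * m + 4)) ^ 2 by
        simp only [N]; push_cast; rw [← pow_mul, ← pow_add]; congr 1; ring,
        Real.sqrt_mul (by positivity), Real.sqrt_sq (by positivity)]
    rw [hs]
    have : (2 : ℝ) ^ j ≤ 2 ^ m := pow_le_pow_right₀ (by norm_num) (by omega)
    calc ((2 ^ j : ℕ) : ℝ) * (8 * Real.sqrt (2 ^ β) / (Real.sqrt (2 ^ β) * 2 ^ (2 * m + 4)))
        = 2 ^ j * (8 / 2 ^ (2 * m + 4)) := by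
          have : Real.sqrt ((2 : ℝ) ^ β) ≠ 0 := by positivity
          push_cast; field_simp
      _ ≤ 2 ^ m * (8 / 2 ^ (2 * m + 4)) := by gcongr
      _ = 1 / 2 ^ (m + 1) := by
          rw [show 2 * m + 4 = m + (m + 1) + 3 by ring, pow_add, pow_add]
          field_simp
          norm_num
  refine ⟨block x P ++ tm x y m ++ block x P, block x P ++ tm y x m ++ block x P, ?_⟩
  have hlen : (block x P ++ tm x y m ++ block x P).length = (P + 2 ^ m + P) * x.length := by
    simp only [List.length_append, length_block, length_tm m x y hg.len]; ring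
  have hK : P + 2 ^ m + P ≤ 2 ^ (β + 5 * m + 10) := by
    have h2m : m ≤ 2 ^ m := Nat.lt_two_pow_self.le
    have e1 : P ≤ 2 ^ m * N := Nat.mul_le_mul_right _ h2m
    have e2 : 2 ^ m ≤ 2 ^ m * N := Nat.le_mul_of_pos_right _ hNpos
    have e3 : 4 * (2 ^ m * N) = 2 ^ (β + 5 * m + 10) := by
      rw [← pow_add, show β + 5 * m + 10 = m + (β + 4 * m + 8) + 2 by ring, pow_add _ _ 2]
      ring
    omega
  have hKpos : 0 < P + 2 ^ m + P := by
    have : 0 < 2 ^ m := by positivity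
    omega
  refine ⟨?_, ?_, ?_, ?_, ?_⟩
  · simp only [List.length_append, length_block, length_tm m x y hg.len,
      length_tm m y x hg.len.symm, hg.len]
  · intro e
    exact tm_ne m x y hg.len hg.ne (List.append_cancel_left (List.append_cancel_right e))
  · rw [hlen]
    calc (P + 2 ^ m + P) * x.length ≤ 2 ^ (β + 5 * m + 10) * 2 ^ β :=
          Nat.mul_le_mul hK hg.short
      _ ≤ _ := by rw [← pow_add]; exact Nat.pow_le_pow_right (by norm_num) (by omega)
  · simp only [tr_append, tr_block]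
    rw [show U ^ P * tr p (tm x y m) * U ^ P - U ^ P * tr p (tm y x m) * U ^ P =
      U ^ P * (tr p (tm x y m) - tr p (tm y x m)) * U ^ P by noncomm_ring]
    have hδ : 2 * (1 / (2 : ℝ) ^ (m + 1)) = 1 / 2 ^ m := by rw [pow_succ]; field_simp
    refine (tm_padded h0 h1 x y (m := m) (N := N) (by positivity)
      (by rw [hδ, div_le_one (by positivity)]; exact one_le_pow₀ (by norm_num)) hsh m le_rfl P P
      le_rfl le_rfl).trans ?_
    rw [hδ]
    exact close_bound hEm (by omega) hε hg.close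
  · rw [tr_append, tr_append, tr_block]
    have hnear : nrm (U ^ P * tr p (tm x y m) * U ^ P - U ^ (P + 2 ^ m + P)) ≤ 2 ^ m * ε := by
      rw [pow_add U (P + 2 ^ m), pow_add U P, ← sub_mul, ← mul_sub]
      exact ((hU.pow _).nrm_mul_right _).trans
        (((hU.pow _).nrm_mul_left _).trans (tm_near h0 h1 x y m).1)
    set K := P + 2 ^ m + P
    set β' := 2 * β + 5 * m + 18
    have hWp : IsProb (U ^ P * tr p (tm x y m) * U ^ P) :=
      ((hU.pow _).mul (isProb_tm h0 h1 x y m)).mul (hU.pow _)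
    have hKb : 1 ≤ K * 2 ^ β' := Nat.one_le_iff_ne_zero.2 (by positivity)
    refine (smooth_of_near hU hWp hg.smooth hKb hnear ?_ ?_).mono ?_
    · push_cast; exact near_bound (by omega) hε hg.close
    · push_cast; exact shift_bound hKpos hK rfl
    · push_cast; exact const_bound β'

end Vale.Agent.P321
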